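import Vale.Agent.P070.Statement
import Vale.Agent.N070X.Defs
import Vale.Agent.N070X.Main

namespace Vale.Agent.Results.P070.A0Simplices

open Vale.Agent.P070.Naimark Vale.Agent.N070X

universe u v w

/-- (1) A metrizable compact convex set is affinely homeomorphic to the tracial state space of a
unital algebra with property (N), not isomorphic to any `K(H)`, if and only if it is a Choquet
simplex (the empty set included).
(2) The tracial state space of every separable unital C*-algebra occurs in this way. -/
theorem result :
    -- (1) a metrizable compact convex set is a trace space of a counterexample iff it is a simplex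
    (∀ (E : Type u) [AddCommGroup E] [Module ℝ E] [TopologicalSpace E] [IsTopologicalAddGroup E]
      [ContinuousSMul ℝ E] [LocallyConvexSpace ℝ E] [T2Space E] (K : Set E),
      IsCompact K → Convex ℝ K → TopologicalSpace.MetrizableSpace K →
      (IsSimplex K ↔ ∃ (A : Type) (_ : CStarAlgebra A) (τ : E → WeakDual ℂ A),
        PropertyN.{0, v} A ∧ ¬ IsCompacts.{0, w} A ∧ IsTraceSpace K A τ)) ∧
    -- (2) the trace space of any separable unital C*-algebra is that of a counterexample
    (∀ (B : Type) [CStarAlgebra B] [TopologicalSpace.SeparableSpace B],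
      ∃ (A : Type) (_ : CStarAlgebra A) (τ : WeakDual ℂ B → WeakDual ℂ A),
        PropertyN.{0, v} A ∧ ¬ IsCompacts.{0, w} A ∧ IsTraceSpace (traces B) A τ) :=
  ⟨fun _ _ _ _ _ _ _ _ _ hK hc _ =>
    ⟨realize hK hc, fun ⟨_, _, _, _, _, H⟩ => isSimplex_of H hc⟩, fun _ _ _ => realize_sep⟩

end Vale.Agent.Results.P070.A0Simplices
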